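import Vale.Agent.P167.N.Kit
import Vale.Agent.P167.H506.Q.Low

/-! generated from Vale.Agent.P167.H506.Q.Low (q < 1 port) -/

set_option autoImplicit false

namespace Vale.Agent.P167.N.H506.Q

open Vale.Agent.P167.H506.Q Vale.Agent.P167.H506

open Finset MeasureTheory Vale.Agent.P167.FK Vale.Agent.P167.FKA

open Vale.Agent.P167.H519 (IsLim)

open Vale.Agent.P167.QX (QL dlr ql_Ex)

variable {Q : ℝ} {A V K : Finset (ℤ × ℤ)} {κ : Cfg} {a : ℝ} {P : Measure Cfg}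

/-- The conditional expectations given the frozen squares and the outside of `A`. -/
theorem RM.cond (hQ : Kit Q) (h : RM Q K κ A V a) (hAK : Disjoint A K) (hP : IsLim Q P)
    (hg : ∀ᵐ ω ∂P, Good ω) {T : Cfg → ℝ} (hT0 : ∀ ω, 0 ≤ T ω) (hT : Loc (V ∪ K) T) {ω : Cfg}
    (hω : Good ω) (hk : ∀ v ∈ K, ω v = κ v) :
    (∫ ω, fz K κ ω ∂P) * Ex Q A ω T ≤ a * ∫ ω, fz K κ ω * T ω ∂P ∧
      ∫ ω, fz K κ ω * T ω ∂P ≤ a * ((∫ ω, fz K κ ω ∂P) * Ex Q A ω T) := by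
  have hQ_pos := hQ.pos
  have hPp : IsProbabilityMeasure P := hP.1
  have hQ0 : 0 < Q := by linarith
  obtain ⟨MT, hMT⟩ := loc_bdd hT
  have hMT0 : 0 ≤ MT := (abs_nonneg _).trans (hMT κ)
  have hfzq : QL (fz K κ) := QL.of_loc (fz_loc K κ)
  have hfM : ∀ ω, |fz K κ ω| ≤ 1 := fun ω => by
    rw [abs_of_nonneg (fz_nonneg _ _ _)]
    exact fz_le_one _ _ _
  have hE0 : ∀ ω, 0 ≤ Ex Q A ω T := fun ω => Ex_nonneg hQ0 fun _ _ => hT0 _
  have hEM : ∀ ω, |Ex Q A ω T| ≤ MT := by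
    intro ω
    rw [abs_of_nonneg (hE0 ω), ← Ex_const (D := A) (η := ω) hQ0 MT]
    exact Ex_mono hQ0 fun S _ => (le_abs_self _).trans (hMT _)
  have hEq : QL (fun ω => Ex Q A ω T) := ql_Ex A (QL.of_loc hT)
  have d := dlr_fz (κ := κ) hQ0 hAK hP hg (QL.of_loc hT) (fun ω _ => hMT ω) (QL.const 1)
    (M := 1) (fun ω _ => by simp) fun _ _ _ => rfl
  simp only [one_mul] at d
  rw [d]
  have i1 : Integrable (fz K κ) P := hfzq.int hg fun ω _ => hfM ω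
  have i2 : Integrable (fun ω => fz K κ ω * Ex Q A ω T) P :=
    (hfzq.mul hEq).int hg (M := 1 * MT) fun ω _ => by
      rw [abs_mul]
      have := hfM ω
      have := hEM ω
      gcongr
  constructor
  · rw [← integral_mul_const, ← integral_const_mul]
    refine integral_mono_ae (i1.mul_const _) (i2.const_mul a) ?_
    filter_upwards [hg] with ω' hω'
    by_cases hk' : ∀ v ∈ K, ω' v = κ v
    · show fz K κ ω' * Ex Q A ω T ≤ a * (fz K κ ω' * Ex Q A ω' T)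
      rw [fz_one hk', one_mul, one_mul]
      exact h.loc hAK hT0 hT hω hω' hk hk'
    · show fz K κ ω' * Ex Q A ω T ≤ a * (fz K κ ω' * Ex Q A ω' T)
      rw [fz_zero hk', zero_mul, zero_mul, mul_zero]
  · have e : a * ((∫ ω, fz K κ ω ∂P) * Ex Q A ω T) =
        ∫ ω', fz K κ ω' * (a * Ex Q A ω T) ∂P := by
      rw [integral_mul_const]
      ring
    rw [e]
    refine integral_mono_ae i2 (i1.mul_const _) ?_
    filter_upwards [hg] with ω' hω'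
    by_cases hk' : ∀ v ∈ K, ω' v = κ v
    · show fz K κ ω' * Ex Q A ω' T ≤ fz K κ ω' * (a * Ex Q A ω T)
      rw [fz_one hk', one_mul, one_mul]
      exact h.loc hAK hT0 hT hω' hω hk' hk
    · show fz K κ ω' * Ex Q A ω' T ≤ fz K κ ω' * (a * Ex Q A ω T)
      rw [fz_zero hk', zero_mul, zero_mul]

/-- Ratio form, both inequalities, `G ≥ 0`. -/
theorem RM.ratio_lim (hQ : Kit Q) (h : RM Q K κ A V a) (hAK : Disjoint A K) (hP : IsLim Q P)
    (hg : ∀ᵐ ω ∂P, Good ω) {T G : Cfg → ℝ} (hT0 : ∀ ω, 0 ≤ T ω) (hT : Loc (V ∪ K) T)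
    (hG0 : ∀ ω, 0 ≤ G ω) (hGq : QL G) {M : ℝ} (hM : ∀ ω, Good ω → |G ω| ≤ M) (hG : Ind A G) :
    (∫ ω, fz K κ ω * (G ω * T ω) ∂P) * (∫ ω, fz K κ ω ∂P) ≤
        a * ((∫ ω, fz K κ ω * G ω ∂P) * (∫ ω, fz K κ ω * T ω ∂P)) ∧
      (∫ ω, fz K κ ω * G ω ∂P) * (∫ ω, fz K κ ω * T ω ∂P) ≤
        a * ((∫ ω, fz K κ ω * (G ω * T ω) ∂P) * (∫ ω, fz K κ ω ∂P)) := by
  have hQ_pos := hQ.pos
  have hPp : IsProbabilityMeasure P := hP.1
  have hQ0 : 0 < Q := by linarith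
  obtain ⟨MT, hMT⟩ := loc_bdd hT
  have hMT0 : 0 ≤ MT := (abs_nonneg _).trans (hMT κ)
  have hM0 : 0 ≤ M := (abs_nonneg _).trans (hM _ f_good.2.1)
  have hfzq : QL (fz K κ) := QL.of_loc (fz_loc K κ)
  have hE0 : ∀ ω, 0 ≤ Ex Q A ω T := fun ω => Ex_nonneg hQ0 fun _ _ => hT0 _
  have hEM : ∀ ω, |Ex Q A ω T| ≤ MT := by
    intro ω
    rw [abs_of_nonneg (hE0 ω), ← Ex_const (D := A) (η := ω) hQ0 MT]
    exact Ex_mono hQ0 fun S _ => (le_abs_self _).trans (hMT _)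
  have hEq : QL (fun ω => Ex Q A ω T) := ql_Ex A (QL.of_loc hT)
  rw [dlr_fz (κ := κ) hQ0 hAK hP hg (QL.of_loc hT) (fun ω _ => hMT ω) hGq hM hG]
  have hfM : ∀ ω, |fz K κ ω| ≤ 1 := fun ω => by
    rw [abs_of_nonneg (fz_nonneg _ _ _)]
    exact fz_le_one _ _ _
  have i4 : Integrable (fun ω => fz K κ ω * (G ω * Ex Q A ω T)) P :=
    (hfzq.mul (hGq.mul hEq)).int hg (M := 1 * (M * MT)) fun ω hω => by
      rw [abs_mul, abs_mul]
      have := hfM ω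
      have := hM ω hω
      have := hEM ω
      gcongr
  have i5 : Integrable (fun ω => fz K κ ω * G ω) P :=
    (hfzq.mul hGq).int hg (M := 1 * M) fun ω hω => by
      rw [abs_mul]
      have := hfM ω
      have := hM ω hω
      gcongr
  constructor
  · rw [← integral_mul_const]
    have e : a * ((∫ ω, fz K κ ω * G ω ∂P) * (∫ ω, fz K κ ω * T ω ∂P)) =
        ∫ ω, fz K κ ω * G ω * (a * ∫ ω, fz K κ ω * T ω ∂P) ∂P := by
      rw [integral_mul_const]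
      ring
    rw [e]
    refine integral_mono_ae (i4.mul_const _) (i5.mul_const _) ?_
    filter_upwards [hg] with ω hω
    show fz K κ ω * (G ω * Ex Q A ω T) * (∫ ω, fz K κ ω ∂P) ≤
      fz K κ ω * G ω * (a * ∫ ω, fz K κ ω * T ω ∂P)
    by_cases hk : ∀ v ∈ K, ω v = κ v
    · rw [fz_one hk, one_mul, one_mul]
      have := ((Vale.Agent.P167.N.H506.Q.RM.cond hQ h) hAK hP hg hT0 hT hω hk).1
      calc G ω * Ex Q A ω T * (∫ ω, fz K κ ω ∂P) = G ω * ((∫ ω, fz K κ ω ∂P) * Ex Q A ω T) := by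
            ring
        _ ≤ _ := mul_le_mul_of_nonneg_left this (hG0 ω)
    · rw [fz_zero hk]
      simp
  · have e : a * ((∫ ω, fz K κ ω * (G ω * Ex Q A ω T) ∂P) * (∫ ω, fz K κ ω ∂P)) =
        ∫ ω, a * (fz K κ ω * (G ω * Ex Q A ω T) * (∫ ω, fz K κ ω ∂P)) ∂P := by
      rw [integral_const_mul, integral_mul_const]
    have e' : (∫ ω, fz K κ ω * G ω ∂P) * (∫ ω, fz K κ ω * T ω ∂P) =
        ∫ ω, fz K κ ω * G ω * (∫ ω, fz K κ ω * T ω ∂P) ∂P := by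
      rw [integral_mul_const]
    rw [e, e']
    refine integral_mono_ae (i5.mul_const _) (((i4.mul_const _)).const_mul _) ?_
    filter_upwards [hg] with ω hω
    show fz K κ ω * G ω * (∫ ω, fz K κ ω * T ω ∂P) ≤
      a * (fz K κ ω * (G ω * Ex Q A ω T) * (∫ ω, fz K κ ω ∂P))
    by_cases hk : ∀ v ∈ K, ω v = κ v
    · rw [fz_one hk, one_mul, one_mul]
      have := ((Vale.Agent.P167.N.H506.Q.RM.cond hQ h) hAK hP hg hT0 hT hω hk).2
      calc G ω * (∫ ω, fz K κ ω * T ω ∂P) ≤ G ω * (a * ((∫ ω, fz K κ ω ∂P) * Ex Q A ω T)) :=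
            mul_le_mul_of_nonneg_left this (hG0 ω)
        _ = _ := by ring
    · rw [fz_zero hk]
      simp

end Vale.Agent.P167.N.H506.Q
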