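import Vale.Agent.P167.N.Base.ArmSDef
import Vale.Agent.P167.H506.Q.Arm

/-!
# P167, `q < 1`, block Q-START: arms in the presence of frozen closed squares

All squares of the annulus which are not in the domain are closed in the outside configuration; they
form a set of simple shape (nothing, a half plane, a quarter plane, a three-quarter plane, a strip).
-/

namespace Vale.Agent.P167.N.H506.Q

open Finset Vale.Agent.P167.FK Vale.Agent.P167.FKA

variable {Q : ℝ}

/-- Arms through an annulus whose squares outside of the domain are closed. -/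
theorem arm_cl {α C : ℝ} (h : ArmS Q α C) {x : ℤ × ℤ} {r R : ℤ} (hr : 1 ≤ r)
    (hrR : r ≤ R) {D : Finset (ℤ × ℤ)} {η : Cfg} (hη : Good η)
    (hc : ∀ v ∈ Bq x R \ Bq x r, v ∉ D → η v = false) (hs : Shp {v | v ∉ D} x r R)
    {G : Cfg → ℝ} (hG0 : ∀ ω, 0 ≤ G ω) (hG : Ind (Bq x R \ Bq x r) G) :
    Ex Q D η (fun ω => G ω * {ω | ArmPx x r R ω}.indicator 1 ω) ≤
      C * ((r : ℝ) / R) ^ α * Ex Q D η G :=
  h x r R D η G hr hrR hη hc (hs.off fun _ _ => Iff.rfl) hG0 hG

end Vale.Agent.P167.N.H506.Q
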