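import Vale.Agent.P167.N.Kit
import Vale.Agent.P167.N.H506.Q.Arm
import Vale.Agent.P167.H635.Box
import Vale.Agent.P167.H506.Q.Rm

/-!
# P167, `q < 1`, block Q-START: ratio mixing in the presence of frozen squares
-/

namespace Vale.Agent.P167.N.H506.Q

open Vale.Agent.P167.H506.Q Vale.Agent.P167.H506

open Finset Vale.Agent.P167.FK Vale.Agent.P167.FKA

open Vale.Agent.P145.FB (PStep PConn)

open Vale.Agent.P167.H259 (f_markov Ex_out cf_cf PC_mono)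

open Vale.Agent.P167.H519 (Jn Sx cf_in ind_le_of_imp loc_mono conn_symm)

open Vale.Agent.P167.H635 (wir good_wir wir_in wir_out up_w dn_w)

open Relation

variable {Q : ℝ} {A V K : Finset (ℤ × ℤ)} {κ : Cfg} {a : ℝ}

theorem RM.mono (hQ : Kit Q) {a' : ℝ} (h : RM Q K κ A V a) (ha : a ≤ a') : RM Q K κ A V a' := by
  have hQ_pos := hQ.pos
  have hQ0 : 0 < Q := by linarith
  intro ξ ξ' h1 h2 h3 h4 F h5 h6
  exact (h ξ ξ' h1 h2 h3 h4 F h5 h6).trans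
    (mul_le_mul_of_nonneg_right ha (Ex_nonneg hQ0 fun _ _ => h5 _))

theorem one_le_of_rm (hQ : Kit Q) (hκ : Good κ) (h : RM Q K κ A V a) : 1 ≤ a := by
  have hQ_pos := hQ.pos
  have hQ0 : 0 < Q := by linarith
  have := h κ κ hκ hκ (fun _ _ => rfl) (fun _ _ => rfl) (fun _ => 1) (fun _ => zero_le_one)
    fun _ _ _ => rfl
  rw [Ex_const hQ0, mul_one] at this
  exact this

/-- **One box with closed frozen squares**, from an arm bound. -/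
theorem rm_arm (hQ : Kit Q) {x : ℤ × ℤ} {r R : ℤ} {ε : ℝ} (hrR : r ≤ R)
    (hκ : ∀ v ∈ K, v ∈ Bq x R → κ v = false)
    (h : ∀ F : Cfg → ℝ, (∀ ω, 0 ≤ F ω) → Loc (Bq x r \ K) F →
      Ex Q (Bq x R \ K) (wir x R) (fun ω => F ω * {ω | ArmPx x r R ω}.indicator 1 ω) ≤
        ε * Ex Q (Bq x R \ K) (wir x R) F) (hε : ε < 1) :
    RM Q K κ (Bq x R \ K) (Bq x r \ K) ((1 / (1 - ε)) ^ 2) := by
  have hQ0 : 0 < Q := hQ.pos
  have hsub : Bq x r \ K ⊆ Bq x R \ K := fun v hv => by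
    rw [Finset.mem_sdiff] at hv ⊢
    exact ⟨bq_le hrR hv.1, hv.2⟩
  have hfr : ∀ ξ : Cfg, (∀ v ∈ K, ξ v = κ v) → ∀ v ∈ Bq x R, v ∉ Bq x R \ K → ξ v = false := by
    intro ξ hξ v hv hv'
    have hvK : v ∈ K := by
      by_contra h3
      exact hv' (Finset.mem_sdiff.2 ⟨hv, h3⟩)
    rw [hξ v hvK]
    exact hκ v hvK hv
  have hp : Pr Q (Bq x R \ K) (wir x R) {ω | ArmPx x r R ω} ≤ ε := by
    have h1 := h (fun _ => 1) (fun _ => zero_le_one) fun _ _ _ => rfl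
    rw [Ex_const hQ0, mul_one] at h1
    simp only [one_mul] at h1
    exact h1
  have h3 : 0 < 1 - ε := by linarith
  intro ξ ξ' hξ hξ' hk hk' F hF0 hF
  have h1 := dn_w hQ0 hQ.le hrR hsub Finset.sdiff_subset Finset.sdiff_subset hξ (hfr ξ hk) hF0 hF hp
  have h2 := up_w hQ0 hQ.le hrR hsub Finset.sdiff_subset Finset.sdiff_subset hξ' (hfr ξ' hk') hF0 hF
    (h F hF0 hF)
  have h4 : (1 - ε) * ((1 - ε) * Ex Q (Bq x R \ K) ξ F) ≤ Ex Q (Bq x R \ K) ξ' F :=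
    (mul_le_mul_of_nonneg_left h1 h3.le).trans h2
  have h5 : Ex Q (Bq x R \ K) ξ F =
      (1 / (1 - ε)) ^ 2 * ((1 - ε) * ((1 - ε) * Ex Q (Bq x R \ K) ξ F)) := by
    field_simp
  rw [h5]
  exact mul_le_mul_of_nonneg_left h4 (by positivity)

/-- **One box with closed frozen squares.** -/
theorem rm_closed (hQ : Kit Q) {α C : ℝ} (h : ArmS Q α C) {x : ℤ × ℤ} {r R : ℤ} (hr : 1 ≤ r)
    (hrR : r ≤ R) (hκ : ∀ v ∈ K, v ∈ Bq x R → κ v = false) (hs : Shp (K : Set (ℤ × ℤ)) x r R)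
    (hε : C * ((r : ℝ) / R) ^ α < 1) :
    RM Q K κ (Bq x R \ K) (Bq x r \ K) ((1 / (1 - C * ((r : ℝ) / R) ^ α)) ^ 2) := by
  refine rm_arm hQ hrR hκ (fun F hF0 hF => ?_) hε
  refine arm_cl h hr hrR (good_wir x R) (fun v hv _ => wir_in (Finset.mem_sdiff.1 hv).1)
    (hs.congr fun v hv => ?_) hF0 fun ω ω' h' => hF ω ω' fun v hv => h' v fun h2 =>
      (Finset.mem_sdiff.1 h2).2 (Finset.mem_sdiff.1 hv).1
  show v ∉ Bq x R \ K ↔ v ∈ K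
  rw [Finset.mem_sdiff]
  constructor
  · intro h3
    by_contra h4
    exact h3 ⟨(Finset.mem_sdiff.1 hv).1, h4⟩
  · exact fun h3 h4 => h4.2 h3

theorem shp_sq {x : ℤ × ℤ} {r R : ℤ} (hs : Shp (K : Set (ℤ × ℤ)) x r R) :
    Shp ((K.image H506.Q.sq : Finset (ℤ × ℤ)) : Set (ℤ × ℤ)) (H506.Q.sq x) r R := by
  refine Shp.congr hs.sh fun v _ => ?_
  exact mem_image_sh

/-- **One box with open frozen squares.** -/
theorem rm_open (hQ : Kit Q) {α C : ℝ} (h : ArmS Q α C) {x : ℤ × ℤ} {r R : ℤ} (hr : 1 ≤ r)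
    (hrR : r ≤ R) (hκ : ∀ v ∈ K, v ∈ Bq x R → κ v = true) (hs : Shp (K : Set (ℤ × ℤ)) x r R)
    (hε : C * ((r : ℝ) / R) ^ α < 1) :
    RM Q K κ (Bq x R \ K) (Bq x r \ K) ((1 / (1 - C * ((r : ℝ) / R) ^ α)) ^ 2) := by
  have hQ_pos := hQ.pos
  have hQ0 : 0 < Q := by linarith
  have key := rm_closed hQ h hr hrR (x := H506.Q.sq x) (K := K.image H506.Q.sq) (κ := du κ) (fun v hv hvR => by
    obtain ⟨w, hw, rfl⟩ := Finset.mem_image.1 hv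
    have h1 : w ∈ Bq x R := by
      rw [mem_bq] at hvR ⊢
      simp only [H506.Q.sq] at hvR
      omega
    show (!(κ ((H506.Q.sq w).1 - 1, (H506.Q.sq w).2))) = false
    have h2 : ((H506.Q.sq w).1 - 1, (H506.Q.sq w).2) = w := by simp [H506.Q.sq]
    rw [h2, hκ w hw h1]
    rfl) (shp_sq hs) hε
  have e1 : ∀ ρ : ℤ, Bq (H506.Q.sq x) ρ \ K.image H506.Q.sq = (Bq x ρ \ K).image H506.Q.sq := by
    intro ρ
    rw [← image_bq, Finset.image_sdiff _ _ sq_inj]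
  rw [e1, e1] at key
  intro ξ ξ' hξ hξ' hk hk' F hF0 hF
  have hd : ∀ ξ : Cfg, Good ξ → Ex Q (Bq x R \ K) ξ F =
      Ex Q ((Bq x R \ K).image H506.Q.sq) (du ξ) (fun ω => F (H519.dui ω)) := fun ξ hξ =>
    H519.Ex_du hQ0 _ hξ F
  rw [hd ξ hξ, hd ξ' hξ']
  have hfr : ∀ ξ : Cfg, (∀ v ∈ K, ξ v = κ v) → ∀ v ∈ K.image H506.Q.sq, du ξ v = du κ v := by
    intro ξ hk v hv
    obtain ⟨w, hw, rfl⟩ := Finset.mem_image.1 hv
    have h2 : ((H506.Q.sq w).1 - 1, (H506.Q.sq w).2) = w := by simp [H506.Q.sq]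
    show (!(ξ ((H506.Q.sq w).1 - 1, (H506.Q.sq w).2))) = (!(κ ((H506.Q.sq w).1 - 1, (H506.Q.sq w).2)))
    rw [h2, hk w hw]
  refine key (du ξ) (du ξ') (f_dual.1 _ hξ) (f_dual.1 _ hξ') (hfr ξ hk) (hfr ξ' hk') _
    (fun ω => hF0 _) fun ω ω' h' => hF _ _ fun v hv => ?_
  show (!(ω (v.1 + 1, v.2))) = (!(ω' (v.1 + 1, v.2)))
  have := h' (H506.Q.sq v) (Finset.mem_image_of_mem _ hv)
  unfold H506.Q.sq at this
  rw [this]

theorem RM.union (hQ : Kit Q) (hκ : Good κ) {A₁ A₂ V₁ V₂ : Finset (ℤ × ℤ)} {a₁ a₂ : ℝ}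
    (h₁ : RM Q K κ A₁ V₁ a₁) (h₂ : RM Q K κ A₂ V₂ a₂) (hV₂ : V₂ ⊆ A₂)
    (hA : Disjoint A₁ A₂) (hK₁ : Disjoint A₁ K) (hK₂ : Disjoint A₂ K) :
    RM Q K κ (A₁ ∪ A₂) (V₁ ∪ V₂) (a₁ * (a₂ * a₁)) := by
  have hQ_pos := hQ.pos
  classical
  have hQ0 : 0 < Q := by linarith
  have ha₁ := one_le_of_rm hQ hκ h₁
  have ha₂ := one_le_of_rm hQ hκ h₂
  intro ξ ξ' hξ hξ' hk hk' F hF0 hF
  obtain ⟨Fm, hFm⟩ : ∃ Fm : Cfg → Cfg → ℝ,
      Fm = fun ω ω' => F fun v => if v ∈ V₂ then ω v else ω' v := ⟨_, rfl⟩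
  obtain ⟨H, hH⟩ : ∃ H : Cfg → ℝ, H = fun ω => Ex Q A₁ κ (Fm ω) := ⟨_, rfl⟩
  have hFm0 : ∀ ω ω', 0 ≤ Fm ω ω' := fun ω ω' => by rw [hFm]; exact hF0 _
  have hFm1 : ∀ ω, Loc V₁ (Fm ω) := by
    intro ω ω' ω'' h
    rw [hFm]
    refine hF _ _ fun v hv => ?_
    by_cases hv2 : v ∈ V₂
    · simp only [hv2, if_true]
    · simp only [hv2, if_false]
      rcases Finset.mem_union.1 hv with h3 | h3
      · exact h v h3
      · exact absurd h3 hv2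
  have hH0 : ∀ ω, 0 ≤ H ω := fun ω => by
    rw [hH]
    exact Ex_nonneg hQ0 fun _ _ => hFm0 _ _
  have hH2 : Loc V₂ H := by
    intro ω ω' h
    rw [hH]
    refine Ex_congr fun S _ => ?_
    rw [hFm]
    show F _ = F _
    congr 1
    funext v
    by_cases hv2 : v ∈ V₂
    · simp only [hv2, if_true]
      exact h v hv2
    · simp only [hv2, if_false]
  have hfr : ∀ (B : Finset (ℤ × ℤ)), Disjoint B K → ∀ ζ : Cfg, (∀ v ∈ K, ζ v = κ v) →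
      ∀ S, ∀ v ∈ K, cf B ζ S v = κ v := by
    intro B hB ζ hζ S v hv
    rw [cf_out fun h => Finset.disjoint_left.1 hB h hv]
    exact hζ v hv
  have hsame : ∀ ω, Ex Q A₁ ω F = Ex Q A₁ ω (Fm ω) := by
    intro ω
    refine Ex_congr fun S _ => ?_
    rw [hFm]
    show F _ = F _
    congr 1
    funext v
    by_cases hv2 : v ∈ V₂
    · simp only [hv2, if_true]
      exact cf_out fun h => Finset.disjoint_left.1 hA h (hV₂ hv2)
    · simp only [hv2, if_false]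
  have hup : ∀ ω, Good ω → (∀ v ∈ K, ω v = κ v) → Ex Q A₁ ω F ≤ a₁ * H ω := by
    intro ω hω hk
    rw [hsame, hH]
    exact h₁ ω κ hω hκ hk (fun _ _ => rfl) _ (hFm0 ω) (hFm1 ω)
  have hdn : ∀ ω, Good ω → (∀ v ∈ K, ω v = κ v) → H ω ≤ a₁ * Ex Q A₁ ω F := by
    intro ω hω hk
    rw [hsame, hH]
    exact h₁ κ ω hκ hω (fun _ _ => rfl) hk _ (hFm0 ω) (hFm1 ω)
  have hKA : Disjoint (A₁ ∪ A₂) K := Finset.disjoint_union_left.2 ⟨hK₁, hK₂⟩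
  have g : ∀ (ζ : Cfg), Good ζ → ∀ S, Good (cf (A₁ ∪ A₂) ζ S) := fun ζ hζ S =>
    f_good.1 _ _ _ hζ
  -- the four steps
  have s1 : Ex Q (A₁ ∪ A₂) ξ F ≤ a₁ * Ex Q (A₁ ∪ A₂) ξ H := by
    rw [f_markov Q A₁ (A₁ ∪ A₂) ξ F hQ0 Finset.subset_union_left hξ, ← Ex_mul_left]
    exact Ex_mono hQ0 fun S _ => hup _ (g ξ hξ S) (hfr _ hKA ξ hk S)
  have s3 : Ex Q (A₁ ∪ A₂) ξ' H ≤ a₁ * Ex Q (A₁ ∪ A₂) ξ' F := by
    rw [f_markov Q A₁ (A₁ ∪ A₂) ξ' F hQ0 Finset.subset_union_left hξ', ← Ex_mul_left]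
    exact Ex_mono hQ0 fun S _ => hdn _ (g ξ' hξ' S) (hfr _ hKA ξ' hk' S)
  have s2 : Ex Q (A₁ ∪ A₂) ξ H ≤ a₂ * Ex Q (A₁ ∪ A₂) ξ' H := by
    rw [f_markov Q A₂ (A₁ ∪ A₂) ξ H hQ0 Finset.subset_union_right hξ,
      ← Ex_const (D := A₁ ∪ A₂) (η := ξ) hQ0 (a₂ * Ex Q (A₁ ∪ A₂) ξ' H)]
    refine Ex_mono hQ0 fun S _ => ?_
    rw [f_markov Q A₂ (A₁ ∪ A₂) ξ' H hQ0 Finset.subset_union_right hξ', ← Ex_mul_left,
      ← Ex_const (D := A₁ ∪ A₂) (η := ξ') hQ0 (Ex Q A₂ (cf (A₁ ∪ A₂) ξ S) H)]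
    exact Ex_mono hQ0 fun T _ => h₂ _ _ (g ξ hξ S) (g ξ' hξ' T) (hfr _ hKA ξ hk S)
      (hfr _ hKA ξ' hk' T) H hH0 hH2
  calc Ex Q (A₁ ∪ A₂) ξ F ≤ a₁ * Ex Q (A₁ ∪ A₂) ξ H := s1
    _ ≤ a₁ * (a₂ * Ex Q (A₁ ∪ A₂) ξ' H) := mul_le_mul_of_nonneg_left s2 (by linarith)
    _ ≤ a₁ * (a₂ * (a₁ * Ex Q (A₁ ∪ A₂) ξ' F)) :=
        mul_le_mul_of_nonneg_left (mul_le_mul_of_nonneg_left s3 (by linarith)) (by linarith)
    _ = _ := by ring

theorem RM.empty (hQ : Kit Q) : RM Q K κ ∅ ∅ 1 := by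
  have hQ_pos := hQ.pos
  have hQ0 : 0 < Q := by linarith
  intro ξ ξ' _ _ _ _ F _ hF
  rw [one_mul]
  refine le_of_eq ?_
  have h : ∀ ω, F ω = F ξ := fun ω => hF _ _ fun v hv => absurd hv (by simp)
  rw [Ex_congr (G := fun _ => F ξ) fun S _ => h _, Ex_const hQ0,
    Ex_congr (Q := Q) (D := ∅) (η := ξ') (F := F) (G := fun _ => F ξ) fun S _ => h _, Ex_const hQ0]

/-- **Finite unions.** -/
theorem RM.biUnion (hQ : Kit Q) (hκ : Good κ) {ι : Type*} [DecidableEq ι] (I : Finset ι)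
    {A V : ι → Finset (ℤ × ℤ)} (h : ∀ i ∈ I, RM Q K κ (A i) (V i) a) (hV : ∀ i ∈ I, V i ⊆ A i)
    (hA : ∀ i ∈ I, ∀ j ∈ I, i ≠ j → Disjoint (A i) (A j)) (hK : ∀ i ∈ I, Disjoint (A i) K) :
    RM Q K κ (I.biUnion A) (I.biUnion V) (a ^ (2 * I.card)) := by
  have hQ_pos := hQ.pos
  induction I using Finset.induction_on with
  | empty =>
    rw [Finset.biUnion_empty, Finset.biUnion_empty, Finset.card_empty, mul_zero, pow_zero]
    exact RM.empty hQ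
  | @insert i I hi ih =>
    have h1 := ih (fun j hj => h j (Finset.mem_insert_of_mem hj))
      (fun j hj => hV j (Finset.mem_insert_of_mem hj))
      (fun j hj k hk => hA j (Finset.mem_insert_of_mem hj) k (Finset.mem_insert_of_mem hk))
      (fun j hj => hK j (Finset.mem_insert_of_mem hj))
    have h2 := h i (Finset.mem_insert_self _ _)
    rw [Finset.biUnion_insert, Finset.biUnion_insert, Finset.card_insert_of_notMem hi]
    have h3 : a ^ (2 * (I.card + 1)) = a * (a ^ (2 * I.card) * a) := by ring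
    rw [h3]
    refine RM.union hQ hκ h2 h1 ?_ ?_ (hK i (Finset.mem_insert_self _ _)) ?_
    · exact Finset.biUnion_mono fun j hj => hV j (Finset.mem_insert_of_mem hj)
    · rw [Finset.disjoint_biUnion_right]
      intro j hj
      exact hA i (Finset.mem_insert_self _ _) j (Finset.mem_insert_of_mem hj)
        fun h => hi (h ▸ hj)
    · rw [Finset.disjoint_biUnion_left]
      exact fun j hj => hK j (Finset.mem_insert_of_mem hj)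

end Vale.Agent.P167.N.H506.Q
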