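import Vale.Agent.P167.N.Kit
import Vale.Agent.P167.N.H506.Q.Rm
import Vale.Agent.P167.H506.Q.Mul

/-! generated from Vale.Agent.P167.H506.Q.Mul (q < 1 port) -/

set_option autoImplicit false

namespace Vale.Agent.P167.N.H506.Q

open Vale.Agent.P167.H506.Q Vale.Agent.P167.H506

open Finset MeasureTheory Vale.Agent.P167.FK Vale.Agent.P167.FKA

open Vale.Agent.P145.FB (PStep PConn)

open Vale.Agent.P167.H259 (f_markov Ex_out)

open Vale.Agent.P167.H519 (IsLim loc_mono)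

open Vale.Agent.P167.QX (QL dlr ql_Ex)

variable {Q : ℝ} {A V K : Finset (ℤ × ℤ)} {κ : Cfg} {a : ℝ}

/-- **Mixing, finite volume.** -/
theorem RM.mul (hQ : Kit Q) (hκ : Good κ) (h : RM Q K κ A V a)
    {D D' : Finset (ℤ × ℤ)} (hAD : A ⊆ D) (hAD' : A ⊆ D') (hDK : Disjoint D K)
    (hDK' : Disjoint D' K) {η η' : Cfg} (hη : Good η) (hη' : Good η') (hk : ∀ v ∈ K, η v = κ v)
    (hk' : ∀ v ∈ K, η' v = κ v) {T G : Cfg → ℝ} (hT0 : ∀ ω, 0 ≤ T ω) (hT : Loc (V ∪ K) T)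
    (hG : Ind A G) :
    |Ex Q D η (fun ω => G ω * T ω) - Ex Q D η G * Ex Q D' η' T| ≤
      (a - 1) * (Ex Q D η (fun ω => |G ω|) * Ex Q D' η' T) := by
  have hQ_pos := hQ.pos
  have hQ0 : 0 < Q := by linarith
  have ha := one_le_of_rm hQ hκ h
  have hAK : Disjoint A K := Finset.disjoint_of_subset_left hAD hDK
  have hfr : ∀ {B : Finset (ℤ × ℤ)} {ζ : Cfg}, Disjoint B K → (∀ v ∈ K, ζ v = κ v) →
      ∀ S, ∀ v ∈ K, cf B ζ S v = κ v := by
    intro B ζ hB hζ S v hv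
    rw [cf_out fun h => Finset.disjoint_left.1 hB h hv]
    exact hζ v hv
  obtain ⟨t, ht⟩ : ∃ t, t = Ex Q D' η' T := ⟨_, rfl⟩
  rw [← ht]
  have hup : ∀ ω, Good ω → (∀ v ∈ K, ω v = κ v) → Ex Q A ω T ≤ a * t := by
    intro ω hω hk1
    rw [ht, f_markov Q A D' η' T hQ0 hAD' hη', ← Ex_mul_left,
      ← Ex_const (D := D') (η := η') hQ0 (Ex Q A ω T)]
    exact Ex_mono hQ0 fun S _ => h.loc hAK hT0 hT hω (f_good.1 _ _ _ hη') hk1 (hfr hDK' hk' S)
  have hdn : ∀ ω, Good ω → (∀ v ∈ K, ω v = κ v) → t ≤ a * Ex Q A ω T := by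
    intro ω hω hk1
    rw [ht, f_markov Q A D' η' T hQ0 hAD' hη',
      ← Ex_const (D := D') (η := η') hQ0 (a * Ex Q A ω T)]
    exact Ex_mono hQ0 fun S _ => h.loc hAK hT0 hT (f_good.1 _ _ _ hη') hω (hfr hDK' hk' S) hk1
  have hdev : ∀ ω, Good ω → (∀ v ∈ K, ω v = κ v) → |Ex Q A ω T - t| ≤ (a - 1) * t :=
    fun ω hω hk1 => dev ha (Ex_nonneg hQ0 fun _ _ => hT0 _) (hup ω hω hk1) (hdn ω hω hk1)
  rw [markov f_markov hQ0 hAD hη hG]
  have e1 : Ex Q D η (fun ω => G ω * Ex Q A ω T) - Ex Q D η G * t =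
      Ex Q D η (fun ω => G ω * (Ex Q A ω T - t)) := by
    rw [mul_comm (Ex Q D η G) t, ← Ex_mul_left, ← Ex_sub]
    exact Ex_congr fun S _ => by ring
  rw [e1]
  refine (abs_Ex_le hQ0 _).trans ?_
  have e2 : (a - 1) * (Ex Q D η (fun ω => |G ω|) * t) =
      Ex Q D η (fun ω => (a - 1) * t * |G ω|) := by
    rw [Ex_mul_left]
    ring
  rw [e2]
  refine Ex_mono hQ0 fun S _ => ?_
  rw [abs_mul, mul_comm ((a - 1) * t)]
  exact mul_le_mul_of_nonneg_left (hdev _ (f_good.1 _ _ _ hη) (hfr hDK hk S)) (abs_nonneg _)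

/-- The expectations in two domains. -/
theorem RM.two (hQ : Kit Q) (hκ : Good κ) (h : RM Q K κ A V a)
    {D D' : Finset (ℤ × ℤ)} (hAD : A ⊆ D) (hAD' : A ⊆ D') (hDK : Disjoint D K)
    (hDK' : Disjoint D' K) {η η' : Cfg} (hη : Good η) (hη' : Good η') (hk : ∀ v ∈ K, η v = κ v)
    (hk' : ∀ v ∈ K, η' v = κ v) {T : Cfg → ℝ} (hT0 : ∀ ω, 0 ≤ T ω) (hT : Loc (V ∪ K) T) :
    Ex Q D η T ≤ a * Ex Q D' η' T := by
  have hQ_pos := hQ.pos
  have hQ0 : 0 < Q := by linarith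
  have h1 := RM.mul hQ hκ h hAD hAD' hDK hDK' hη hη' hk hk' hT0 hT (G := fun _ => 1)
    fun _ _ _ => rfl
  simp only [one_mul, abs_one, Ex_const hQ0] at h1
  have h2 := (abs_le.1 h1).2
  linarith

/-- **Mixing for the infinite-volume measure with frozen squares.** -/
theorem RM.mul_lim (hQ : Kit Q) (hκ : Good κ) (h : RM Q K κ A V a)
    (hAK : Disjoint A K) {P : Measure Cfg} (hP : IsLim Q P) (hg : ∀ᵐ ω ∂P, Good ω)
    {T G : Cfg → ℝ} (hT0 : ∀ ω, 0 ≤ T ω) (hT : Loc (V ∪ K) T) (hGq : QL G) {M : ℝ}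
    (hM : ∀ ω, Good ω → |G ω| ≤ M) (hG : Ind A G) :
    |(∫ ω, fz K κ ω * (G ω * T ω) ∂P) * (∫ ω, fz K κ ω ∂P) -
        (∫ ω, fz K κ ω * G ω ∂P) * (∫ ω, fz K κ ω * T ω ∂P)| ≤
      (a - 1) * ((∫ ω, fz K κ ω * |G ω| ∂P) * (∫ ω, fz K κ ω * T ω ∂P)) := by
  have hQ_pos := hQ.pos
  classical
  have hPp : IsProbabilityMeasure P := hP.1
  have hQ0 : 0 < Q := by linarith
  have ha := one_le_of_rm hQ hκ h
  -- the conditional expectation
  obtain ⟨E, hE⟩ : ∃ E : Cfg → ℝ, E = fun ω => Ex Q A ω T := ⟨_, rfl⟩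
  have hEq : QL E := by
    rw [hE]
    exact ql_Ex A (QL.of_loc hT)
  obtain ⟨MT, hMT⟩ : ∃ MT : ℝ, ∀ ω, |T ω| ≤ MT := by
    exact loc_bdd hT
  have hM0 : 0 ≤ M := (abs_nonneg _).trans (hM _ f_good.2.1)
  have hMT0 : 0 ≤ MT := (abs_nonneg _).trans (hMT κ)
  have hE0 : ∀ ω, 0 ≤ E ω := fun ω => by
    rw [hE]
    exact Ex_nonneg hQ0 fun _ _ => hT0 _
  have hEM : ∀ ω, |E ω| ≤ MT := by
    intro ω
    rw [abs_of_nonneg (hE0 ω), hE]
    show Ex Q A ω T ≤ MT
    rw [← Ex_const (D := A) (η := ω) hQ0 MT]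
    exact Ex_mono hQ0 fun S _ => (le_abs_self _).trans (hMT _)
  have hfzq : QL (fz K κ) := QL.of_loc (fz_loc K κ)
  have hfzi : Ind A (fz K κ) := (fz_loc K κ).ind hAK.symm
  have hfM : ∀ ω, |fz K κ ω| ≤ 1 := fun ω => by
    rw [abs_of_nonneg (fz_nonneg _ _ _)]
    exact fz_le_one _ _ _
  -- DLR for products with a factor which does not depend on `A`
  have hdlr : ∀ H : Cfg → ℝ, QL H → (∀ ω, Good ω → |H ω| ≤ M ∨ |H ω| ≤ 1) → Ind A H →
      ∫ ω, fz K κ ω * (H ω * T ω) ∂P = ∫ ω, fz K κ ω * (H ω * E ω) ∂P := by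
    intro H hH hHM hHi
    have q1 : QL (fun ω => fz K κ ω * (H ω * T ω)) := hfzq.mul (hH.mul (QL.of_loc hT))
    have b1 : ∀ ω, Good ω → |fz K κ ω * (H ω * T ω)| ≤ 1 * (max M 1 * MT) := by
      intro ω hω
      rw [abs_mul, abs_mul]
      have h1 : |H ω| ≤ max M 1 := by
        rcases hHM ω hω with h2 | h2
        · exact h2.trans (le_max_left _ _)
        · exact h2.trans (le_max_right _ _)
      have := hfM ω
      have := hMT ω
      gcongr
    rw [dlr hP hQ0 hg q1 b1 A]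
    refine integral_congr_ae ?_
    filter_upwards [hg] with ω hω
    have e1 : Ex Q A ω (fun ω => fz K κ ω * (H ω * T ω)) =
        Ex Q A ω (fun ω' => fz K κ ω * H ω * T ω') := by
      refine Ex_congr fun S _ => ?_
      rw [hfzi (cf A ω S) ω fun v hv => cf_out hv, hHi (cf A ω S) ω fun v hv => cf_out hv]
      ring
    rw [e1, Ex_mul_left, hE]
    ring
  have d1 := hdlr G hGq (fun ω hω => Or.inl (hM ω hω)) hG
  have d2 := hdlr (fun _ => 1) (QL.const 1) (fun ω _ => Or.inr (by simp)) fun _ _ _ => rfl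
  simp only [one_mul] at d2
  -- comparison of the conditional expectations
  have hcmp : ∀ ω ω' : Cfg, Good ω → Good ω' → (∀ v ∈ K, ω v = κ v) → (∀ v ∈ K, ω' v = κ v) →
      E ω ≤ a * E ω' := by
    intro ω ω' h1 h2 h3 h4
    rw [hE]
    exact h.loc hAK hT0 hT h1 h2 h3 h4
  obtain ⟨p, hp⟩ : ∃ p, p = ∫ ω, fz K κ ω ∂P := ⟨_, rfl⟩
  obtain ⟨t, ht⟩ : ∃ t, t = ∫ ω, fz K κ ω * E ω ∂P := ⟨_, rfl⟩
  have i1 : Integrable (fz K κ) P := hfzq.int hg fun ω _ => hfM ω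
  have i2 : Integrable (fun ω => fz K κ ω * E ω) P :=
    (hfzq.mul hEq).int hg (M := 1 * MT) fun ω _ => by
      rw [abs_mul]
      have := hfM ω
      have := hEM ω
      gcongr
  have i3 : Integrable (fun ω => fz K κ ω * |G ω|) P :=
    (hfzq.mul (hGq.comp fun x => |x|)).int hg (M := 1 * M) fun ω hω => by
      rw [abs_mul, abs_abs]
      have := hfM ω
      have := hM ω hω
      gcongr
  have i4 : Integrable (fun ω => fz K κ ω * (G ω * E ω)) P :=
    (hfzq.mul (hGq.mul hEq)).int hg (M := 1 * (M * MT)) fun ω hω => by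
      rw [abs_mul, abs_mul]
      have := hfM ω
      have := hM ω hω
      have := hEM ω
      gcongr
  have i5 : Integrable (fun ω => fz K κ ω * G ω) P :=
    (hfzq.mul hGq).int hg (M := 1 * M) fun ω hω => by
      rw [abs_mul]
      have := hfM ω
      have := hM ω hω
      gcongr
  have hp0 : 0 ≤ p := by rw [hp]; exact integral_nonneg fun ω => fz_nonneg _ _ _
  have hdev : ∀ ω, Good ω → (∀ v ∈ K, ω v = κ v) → |p * E ω - t| ≤ (a - 1) * t := by
    intro ω hω hk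
    have u1 : p * E ω ≤ a * t := by
      rw [hp, ht, ← integral_mul_const, ← integral_const_mul]
      refine integral_mono_ae (i1.mul_const _) (i2.const_mul a) ?_
      filter_upwards [hg] with ω' hω'
      by_cases hk' : ∀ v ∈ K, ω' v = κ v
      · show fz K κ ω' * E ω ≤ a * (fz K κ ω' * E ω')
        rw [fz_one hk', one_mul, one_mul]
        exact hcmp ω ω' hω hω' hk hk'
      · show fz K κ ω' * E ω ≤ a * (fz K κ ω' * E ω')
        rw [fz_zero hk', zero_mul, zero_mul, mul_zero]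
    have u2 : t ≤ a * (p * E ω) := by
      have e : a * (p * E ω) = ∫ ω', fz K κ ω' * (a * E ω) ∂P := by
        rw [integral_mul_const, ← hp]
        ring
      rw [e, ht]
      refine integral_mono_ae i2 (i1.mul_const _) ?_
      filter_upwards [hg] with ω' hω'
      by_cases hk' : ∀ v ∈ K, ω' v = κ v
      · show fz K κ ω' * E ω' ≤ fz K κ ω' * (a * E ω)
        rw [fz_one hk', one_mul, one_mul]
        exact hcmp ω' ω hω' hω hk' hk
      · show fz K κ ω' * E ω' ≤ fz K κ ω' * (a * E ω)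
        rw [fz_zero hk', zero_mul, zero_mul]
    exact dev ha (mul_nonneg hp0 (hE0 ω)) u1 u2
  rw [d1, d2, ← ht, ← hp]
  have e1 : (∫ ω, fz K κ ω * (G ω * E ω) ∂P) * p - (∫ ω, fz K κ ω * G ω ∂P) * t =
      ∫ ω, fz K κ ω * G ω * (p * E ω - t) ∂P := by
    have e2 : (fun ω => fz K κ ω * G ω * (p * E ω - t)) =
        fun ω => fz K κ ω * (G ω * E ω) * p - fz K κ ω * G ω * t := by
      funext ω
      ring
    rw [e2, integral_sub (i4.mul_const p) (i5.mul_const t), integral_mul_const,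
      integral_mul_const]
  rw [e1]
  have e3 : (a - 1) * ((∫ ω, fz K κ ω * |G ω| ∂P) * t) =
      ∫ ω, fz K κ ω * |G ω| * ((a - 1) * t) ∂P := by
    rw [integral_mul_const]
    ring
  rw [e3]
  refine abs_integral_le_integral_abs.trans ?_
  refine integral_mono_ae ?_ (i3.mul_const _) ?_
  · refine Integrable.abs ?_
    have e2 : (fun ω => fz K κ ω * G ω * (p * E ω - t)) =
        fun ω => fz K κ ω * (G ω * E ω) * p - fz K κ ω * G ω * t := by
      funext ω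
      ring
    rw [e2]
    exact (i4.mul_const p).sub (i5.mul_const t)
  · filter_upwards [hg] with ω hω
    show |fz K κ ω * G ω * (p * E ω - t)| ≤ fz K κ ω * |G ω| * ((a - 1) * t)
    by_cases hk : ∀ v ∈ K, ω v = κ v
    · rw [fz_one hk, one_mul, one_mul, abs_mul]
      exact mul_le_mul_of_nonneg_left (hdev ω hω hk) (abs_nonneg _)
    · rw [fz_zero hk]
      simp

end Vale.Agent.P167.N.H506.Q
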