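import Vale.Agent.P167.N.Kit
import Vale.Agent.P167.N.H506.Q.EF
import Vale.Agent.P167.H506.Q.Tr

/-! generated from Vale.Agent.P167.H506.Q.Tr (q < 1 port) -/

set_option autoImplicit false

namespace Vale.Agent.P167.N.H506.Q

open Vale.Agent.P167.H506.Q Vale.Agent.P167.H506

open Finset MeasureTheory Filter Topology Vale.Agent.P167.FK Vale.Agent.P167.FKA

open Vale.Agent.P167.H259 (f_markov f_fkg f_comp f_comp2 Ex_out cf_cf PC_mono)

open Vale.Agent.P167.H519 (IsLim cf_in)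

open Vale.Agent.P167.QX (QL dlr ql_Ex)

variable {Q : ℝ} {K : Finset (ℤ × ℤ)} {κ : Cfg} {P : Measure Cfg}

/-- **Finite-volume approximation of the expectations given the frozen squares.** -/
theorem EF_lim (hQ : Kit Q) (hP : IsLim Q P) (hg : ∀ᵐ ω ∂P, Good ω) (K : Finset (ℤ × ℤ)) (κ : Cfg)
    {F : Cfg → ℝ} (hF : LF F) {ε : ℝ} (hε : 0 < ε) : ∃ R : ℤ, ∀ (D : Finset (ℤ × ℤ)) (η : Cfg),
      Bq 0 R ⊆ D → Good η → (∀ v ∈ K, η v = κ v) → |Ex Q (D \ K) η F - EF P K κ F| ≤ ε := by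
  have hQ_pos := hQ.pos
  classical
  have hQ0 : 0 < Q := by linarith
  have hp := fz_pos hQ hP hg K κ
  obtain ⟨B, hB⟩ := hF
  obtain ⟨M, hM⟩ := loc_bdd hB
  have hM0 : 0 ≤ M := (abs_nonneg _).trans (hM κ)
  have hL : Loc (K ∪ B) (fun ω => fz K κ ω * F ω) := by
    intro ω ω' h
    show fz K κ ω * F ω = fz K κ ω' * F ω'
    rw [fz_congr fun v hv => h v (mem_union_left _ hv), hB ω ω' fun v hv => h v (mem_union_right _ hv)]
  obtain ⟨p, hp'⟩ : ∃ p, p = ∫ ω, fz K κ ω ∂P := ⟨_, rfl⟩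
  rw [← hp'] at hp
  obtain ⟨δ, hδ⟩ : ∃ δ, δ = ε * p / (1 + M) := ⟨_, rfl⟩
  have hδ0 : 0 < δ := by rw [hδ]; positivity
  obtain ⟨R₁, h₁⟩ := hP.2 _ _ hL δ hδ0
  obtain ⟨R₂, h₂⟩ := hP.2 _ _ (fz_loc K κ) δ hδ0
  refine ⟨max R₁ R₂, fun D η hD hη hk => ?_⟩
  have k1 := h₁ D η ((H519.Bq_mono (le_max_left _ _)).trans hD) hη
  have k2 := h₂ D η ((H519.Bq_mono (le_max_right _ _)).trans hD) hη
  rw [Ex_fz hQ0 hη hk] at k1
  rw [← hp'] at k2
  unfold EF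
  rw [← hp']
  obtain ⟨x, hx⟩ : ∃ x, x = Ex Q (D \ K) η F := ⟨_, rfl⟩
  obtain ⟨y, hy⟩ : ∃ y, y = Ex Q D η (fz K κ) := ⟨_, rfl⟩
  obtain ⟨f, hf⟩ : ∃ f, f = ∫ ω, fz K κ ω * F ω ∂P := ⟨_, rfl⟩
  rw [← hx, ← hy, ← hf] at k1
  rw [← hy] at k2
  rw [← hx, ← hf]
  have hxM : |x| ≤ M := by
    rw [hx, abs_le]
    constructor
    · rw [← Ex_const (D := D \ K) (η := η) hQ0 (-M)]
      exact Ex_mono hQ0 fun S _ => (abs_le.1 (hM _)).1
    · rw [← Ex_const (D := D \ K) (η := η) hQ0 M]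
      exact Ex_mono hQ0 fun S _ => (abs_le.1 (hM _)).2
  have e : x - f / p = ((x * y - f) - x * (y - p)) / p := by
    field_simp
    ring
  rw [e, abs_div, abs_of_pos hp, div_le_iff₀ hp]
  calc |x * y - f - x * (y - p)| ≤ |x * y - f| + |x * (y - p)| := abs_sub _ _
    _ ≤ δ + M * δ := by
        rw [abs_mul]
        gcongr
    _ = (1 + M) * δ := by ring
    _ = ε * p := by
        rw [hδ]
        field_simp
    _ ≤ ε * p := le_rfl

/-- **Transfer**: an inequality between polynomials of expectations; here for two functions. -/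
theorem EF_tr (hQ : Kit Q) (hP : IsLim Q P) (hg : ∀ᵐ ω ∂P, Good ω) (K : Finset (ℤ × ℤ)) (κ : Cfg)
    {F G : Cfg → ℝ} (hF : LF F) (hG : LF G) {a b : ℝ} (R₀ : ℤ)
    (h : ∀ (D : Finset (ℤ × ℤ)) (η : Cfg), Bq 0 R₀ ⊆ D → K ⊆ D → Good η → (∀ v ∈ K, η v = κ v) →
      a * Ex Q (D \ K) η F ≤ b * Ex Q (D \ K) η G) :
    a * EF P K κ F ≤ b * EF P K κ G := by
  have hQ_pos := hQ.pos
  classical
  refine le_of_forall_pos_le_add fun ε hε => ?_
  have hc : 0 < |a| + |b| + 1 := by positivity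
  obtain ⟨R₁, h₁⟩ := EF_lim hQ hP hg K κ hF (ε := ε / (|a| + |b| + 1)) (by positivity)
  obtain ⟨R₂, h₂⟩ := EF_lim hQ hP hg K κ hG (ε := ε / (|a| + |b| + 1)) (by positivity)
  obtain ⟨η, hη, hk⟩ := exists_good K κ
  obtain ⟨D, hD⟩ : ∃ D : Finset (ℤ × ℤ), D = (Bq 0 (max R₀ (max R₁ R₂))) ∪ K := ⟨_, rfl⟩
  have hDR : ∀ R, R ≤ max R₀ (max R₁ R₂) → Bq 0 R ⊆ D := fun R hR => by
    rw [hD]
    exact (H519.Bq_mono hR).trans subset_union_left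
  have k0 := h D η (hDR _ (le_max_left _ _)) (by rw [hD]; exact subset_union_right) hη hk
  have k1 := h₁ D η (hDR _ ((le_max_left _ _).trans (le_max_right _ _))) hη hk
  have k2 := h₂ D η (hDR _ ((le_max_right _ _).trans (le_max_right _ _))) hη hk
  obtain ⟨x, hx⟩ : ∃ x, x = Ex Q (D \ K) η F := ⟨_, rfl⟩
  obtain ⟨y, hy⟩ : ∃ y, y = Ex Q (D \ K) η G := ⟨_, rfl⟩
  rw [← hx] at k0 k1
  rw [← hy] at k0 k2
  obtain ⟨t, ht⟩ : ∃ t, t = ε / (|a| + |b| + 1) := ⟨_, rfl⟩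
  rw [← ht] at k1 k2
  have ht0 : 0 < t := by rw [ht]; positivity
  have e1 : |a * (x - EF P K κ F)| ≤ |a| * t := by
    rw [abs_mul]
    gcongr
  have e2 : |b * (y - EF P K κ G)| ≤ |b| * t := by
    rw [abs_mul]
    gcongr
  have e3 : (|a| + |b|) * t ≤ ε := by
    have : (|a| + |b| + 1) * t = ε := by
      rw [ht]
      field_simp
    nlinarith
  have a1 := abs_le.1 e1
  have a2 := abs_le.1 e2
  nlinarith [a1.1, a1.2, a2.1, a2.2]

end Vale.Agent.P167.N.H506.Q
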