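import Vale.Agent.P167.N.Kit
import Vale.Agent.P167.N.H398.Q.Mac
import Vale.Agent.P167.H506.Q.Loc1

/-! generated from Vale.Agent.P167.H506.Q.Loc1 (q < 1 port) -/

set_option autoImplicit false

namespace Vale.Agent.P167.N.H506.Q

open Vale.Agent.P167.H506.Q Vale.Agent.P167.H506

open Finset MeasureTheory Vale.Agent.P167.FK Vale.Agent.P167.FKA

open Vale.Agent.P167.H166 (bxx mem_bxx)

open Vale.Agent.P167.H562.QM (MajA OneC Nr)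

open Vale.Agent.P167.H398.Q (macro_F)

variable {Q : ℝ} {x : ℤ × ℤ} {I : Finset (ℤ × ℤ)} {η κ : Cfg}

/-- **Large segments around a point, with a factor of a small ball.** -/
theorem num_one (hQ : Kit Q) (h : RSW Q) : ∃ e1 : ℝ, 0 < e1 ∧
    ∀ κ0 R0 s : ℝ, 0 < κ0 → 0 ≤ R0 → ∃ C ρ0 : ℝ, 0 < C ∧ 0 < ρ0 ∧ ∀ ρ : ℤ, ρ0 ≤ ρ →
      ∀ (x : ℤ × ℤ) (Z : ℤ), (Z : ℝ) ≤ R0 * ρ → ∃ N : Cfg → ℕ,
      (∀ (W : ℤ), κ0 * ρ + Z < W → ∀ ω ω' : Cfg, (∀ v ∈ Bq x W, ω v = ω' v) → N ω = N ω') ∧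
      (∀ ω, MajA (Bq x Z) (κ0 * ρ) ω (N ω)) ∧
      ∀ (W : ℤ) (I : Finset (ℤ × ℤ)) (η : Cfg), κ0 * ρ + Z < W → Good η →
        (∀ (y : ℤ × ℤ) (a : ℤ), 1 ≤ a → bxx y a ⊆ Bq x W → OneC y a (Bq x W \ I) η) →
        ∀ (b : ℤ) (G : Cfg → ℝ), (b : ℝ) ≤ e1 * κ0 / (1 + |s|) * ρ → (∀ ω, 0 ≤ G ω) →
          Loc (Bq x b ∪ I) G →
          Ex Q (Bq x W \ I) η (fun ω => G ω * Real.exp (s * (N ω : ℝ))) ≤
            C * Ex Q (Bq x W \ I) η G := by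
  have hQ_pos := hQ.pos
  obtain ⟨e1, he1, H⟩ := Vale.Agent.P167.N.H398.Q.macro_F hQ h 1
  refine ⟨e1, he1, fun κ0 R0 s hκ0 hR0 => ?_⟩
  obtain ⟨C, ρ0, hC, hρ0, H⟩ := H κ0 R0 s hκ0 hR0
  refine ⟨C, ρ0, hC, hρ0, fun ρ hρ x Z hZ => ?_⟩
  obtain ⟨N, h1, h2, h3⟩ := H ρ hρ x (Bq x Z) (fun v hv => by
    have : (nm (v - x) : ℝ) ≤ Z := by exact_mod_cast nm_of_bq hv
    linarith) (fun _ => x)
  refine ⟨N, fun W hW ω ω' hh => ?_, h2, fun W I η hW hη hone b G hb hG0 hG => ?_⟩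
  · refine h1 ω ω' fun v hv _ => hh v (bq_of_nm ?_)
    have := nr_bq hv
    have h5 : (nm (v - x) : ℝ) < W := by linarith
    exact_mod_cast h5
  · refine h3 (Bq x W \ I) η hη (fun y a ha _ hy => hone y a ha fun v hv => bq_of_nm ?_) G hG0 ?_
    · have := nr_bq (hy v hv).1
      have h5 : (nm (v - x) : ℝ) < W := by linarith
      exact_mod_cast h5
    · intro ω ω' hh
      refine hG ω ω' fun v hv => hh v ?_
      rintro ⟨k1, -, k2⟩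
      rcases mem_union.1 hv with h5 | h5
      · have h6 : (nm (v - x) : ℝ) ≤ b := by exact_mod_cast nm_of_bq h5
        have := k2 0
        linarith
      · exact (mem_sdiff.1 k1).2 h5

end Vale.Agent.P167.N.H506.Q
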