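import Vale.Agent.P167.N.Kit
import Vale.Agent.P167.N.H506.Q.Arm
import Vale.Agent.P167.H506.Q.ArmF

/-! generated from Vale.Agent.P167.H506.Q.ArmF (q < 1 port) -/

set_option autoImplicit false

namespace Vale.Agent.P167.N.H506.Q

open Vale.Agent.P167.H506.Q Vale.Agent.P167.H506

open Finset MeasureTheory Vale.Agent.P167.FK Vale.Agent.P167.FKA

open Vale.Agent.P167.H519 (IsLim)

open Vale.Agent.P167.QX (QL dlr ql_Ex)

open Vale.Agent.P167.H662.Q (FrA WrA err_fr_dec err_wr_dec)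

variable {Q : ℝ} {K : Finset (ℤ × ℤ)} {κ : Cfg} {P : Measure Cfg}

theorem EF_cond_le (hQ : Kit Q) (hP : IsLim Q P) (hg : ∀ᵐ ω ∂P, Good ω) {A B : Finset (ℤ × ℤ)}
    (hAK : Disjoint A K) {T : Cfg → ℝ} (hT : Loc B T) {t : ℝ}
    (ht : ∀ ξ, Good ξ → (∀ v ∈ K, ξ v = κ v) → Ex Q A ξ T ≤ t) {G : Cfg → ℝ} (hG0 : ∀ ω, 0 ≤ G ω)
    (hGq : QL G) {M : ℝ} (hM : ∀ ω, Good ω → |G ω| ≤ M) (hG : Ind A G) :
    EF P K κ (fun ω => G ω * T ω) ≤ t * EF P K κ G := by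
  have hQ_pos := hQ.pos
  have hPp : IsProbabilityMeasure P := hP.1
  have hQ0 : 0 < Q := by linarith
  obtain ⟨MT, hMT⟩ := loc_bdd hT
  have hMT0 : 0 ≤ MT := (abs_nonneg _).trans (hMT κ)
  have hM0 : 0 ≤ M := (abs_nonneg _).trans (hM _ f_good.2.1)
  unfold EF
  rw [dlr_fz (κ := κ) hQ0 hAK hP hg (QL.of_loc hT) (fun ω _ => hMT ω) hGq hM hG, ← mul_div_assoc]
  refine div_le_div_of_nonneg_right ?_ (integral_nonneg fun ω => fz_nonneg _ _ _)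
  have hfzq : QL (fz K κ) := QL.of_loc (fz_loc K κ)
  have hfM : ∀ ω, |fz K κ ω| ≤ 1 := fun ω => by
    rw [abs_of_nonneg (fz_nonneg _ _ _)]
    exact fz_le_one _ _ _
  have hEM : ∀ ω, |Ex Q A ω T| ≤ MT := by
    intro ω
    rw [abs_le]
    constructor
    · rw [← Ex_const (D := A) (η := ω) hQ0 (-MT)]
      exact Ex_mono hQ0 fun S _ => (abs_le.1 (hMT _)).1
    · rw [← Ex_const (D := A) (η := ω) hQ0 MT]
      exact Ex_mono hQ0 fun S _ => (abs_le.1 (hMT _)).2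
  have i1 : Integrable (fun ω => fz K κ ω * (G ω * Ex Q A ω T)) P :=
    (hfzq.mul (hGq.mul (ql_Ex A (QL.of_loc hT)))).int hg (M := 1 * (M * MT)) fun ω hω => by
      rw [abs_mul, abs_mul]
      have := hfM ω
      have := hEM ω
      have := hM ω hω
      gcongr
  have i2 : Integrable (fun ω => fz K κ ω * G ω) P := fz_int hg hGq hM
  rw [← integral_const_mul]
  refine integral_mono_ae i1 (i2.const_mul t) ?_
  filter_upwards [hg] with ω hω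
  show fz K κ ω * (G ω * Ex Q A ω T) ≤ t * (fz K κ ω * G ω)
  by_cases hk : ∀ v ∈ K, ω v = κ v
  · rw [fz_one hk, one_mul, one_mul, mul_comm]
    exact mul_le_mul_of_nonneg_right (ht ω hω hk) (hG0 ω)
  · rw [fz_zero hk, zero_mul, zero_mul, mul_zero]

theorem shp_sd {x : ℤ × ℤ} {r R : ℤ} (hs : Shp (K : Set (ℤ × ℤ)) x r R) :
    Shp {v | v ∈ Bq x R \ Bq x r ∧ v ∉ (Bq x R \ Bq x r) \ K} x r R := by
  refine hs.off fun v hv => ?_
  show v ∉ (Bq x R \ Bq x r) \ K ↔ v ∈ K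
  rw [mem_sdiff]
  constructor
  · intro h
    by_contra h2
    exact h ⟨hv, h2⟩
  · exact fun h h2 => h2.2 h

/-- **Open arms, closed frozen squares.** -/
theorem EF_arm_cl (hQ : Kit Q) (hP : IsLim Q P) (hg : ∀ᵐ ω ∂P, Good ω) {α C : ℝ}
    (h : ArmS Q α C) {x : ℤ × ℤ} {r R : ℤ} (hr : 1 ≤ r) (hrR : r ≤ R)
    (hκ : ∀ v ∈ K, v ∈ Bq x R \ Bq x r → κ v = false) (hs : Shp (K : Set (ℤ × ℤ)) x r R)
    {G : Cfg → ℝ} (hG0 : ∀ ω, 0 ≤ G ω)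
    (hGq : QL G) {M : ℝ} (hM : ∀ ω, Good ω → |G ω| ≤ M) (hG : Ind ((Bq x R \ Bq x r) \ K) G) :
    EF P K κ (fun ω => G ω * {ω | ArmPx x r R ω}.indicator 1 ω) ≤
      C * ((r : ℝ) / R) ^ α * EF P K κ G := by
  have hQ0 : 0 < Q := hQ.pos
  refine EF_cond_le hQ hP hg sdiff_disjoint (loc_arm x r R) (fun ξ hξ hk => ?_) hG0 hGq hM hG
  have key := h x r R ((Bq x R \ Bq x r) \ K) ξ (fun _ => 1) hr hrR hξ (fun v hv hvA => ?_)
    (shp_sd hs) (fun _ => zero_le_one) (fun _ _ _ => rfl)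
  · simp only [one_mul] at key
    rwa [Ex_const hQ0, mul_one] at key
  · have hvK : v ∈ K := by
      by_contra h'
      exact hvA (mem_sdiff.2 ⟨hv, h'⟩)
    rw [hk v hvK]
    exact hκ v hvK hv

/-- **Dual arms, open frozen squares.** -/
theorem EF_arm_op (hQ : Kit Q) (hP : IsLim Q P) (hg : ∀ᵐ ω ∂P, Good ω) {α C : ℝ}
    (h : ArmS Q α C) {x : ℤ × ℤ} {r R : ℤ} (hr : 1 ≤ r) (hrR : r ≤ R)
    (hκ : ∀ v ∈ K, v ∈ Bq x R \ Bq x r → κ v = true) (hs : Shp (K : Set (ℤ × ℤ)) x r R)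
    {G : Cfg → ℝ} (hG0 : ∀ ω, 0 ≤ G ω)
    (hGq : QL G) {M : ℝ} (hM : ∀ ω, Good ω → |G ω| ≤ M) (hG : Ind ((Bq x R \ Bq x r) \ K) G) :
    EF P K κ (fun ω => G ω * {ω | ArmDx x r R ω}.indicator 1 ω) ≤
      C * ((r : ℝ) / R) ^ α * EF P K κ G := by
  have hQ0 : 0 < Q := hQ.pos
  obtain ⟨B, hB⟩ := loc_armD x r R
  refine EF_cond_le hQ hP hg sdiff_disjoint hB (fun ξ hξ hk => ?_) hG0 hGq hM hG
  have key := h.dual hQ0 x r R ((Bq x R \ Bq x r) \ K) ξ (fun _ => 1) hr hrR hξ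
    (fun v hv hvA => ?_) (shp_sd hs) (fun _ => zero_le_one) (fun _ _ _ => rfl)
  · simp only [one_mul] at key
    rwa [Ex_const hQ0, mul_one] at key
  · have hvK : v ∈ K := by
      by_contra h'
      exact hvA (mem_sdiff.2 ⟨hv, h'⟩)
    rw [hk v hvK]
    exact hκ v hvK hv

end Vale.Agent.P167.N.H506.Q
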