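import Vale.Agent.P167.N.Kit
import Vale.Agent.P167.N.H506.Q.EF
import Vale.Agent.P167.H506.Q.EF2

/-! generated from Vale.Agent.P167.H506.Q.EF2 (q < 1 port) -/

set_option autoImplicit false

namespace Vale.Agent.P167.N.H506.Q

open Vale.Agent.P167.H506.Q Vale.Agent.P167.H506

open Finset MeasureTheory Vale.Agent.P167.FK Vale.Agent.P167.FKA

open Vale.Agent.P167.H519 (IsLim)

open Vale.Agent.P167.QX (QL dlr ql_Ex)

variable {Q : ℝ} {A V K K' K₁ K₂ : Finset (ℤ × ℤ)} {κ : Cfg} {a : ℝ} {P : Measure Cfg}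

theorem EF_union (hQ : Kit Q) (hP : IsLim Q P) (hg : ∀ᵐ ω ∂P, Good ω) (T : Cfg → ℝ) :
    EF P (K ∪ K') κ T = EF P K κ (fun ω => fz K' κ ω * T ω) / EF P K κ (fz K' κ) := by
  have hQ_pos := hQ.pos
  have hp := fz_pos hQ hP hg K κ
  unfold EF
  rw [div_div_div_cancel_right₀ hp.ne']
  congr 1
  · refine integral_congr_ae (Filter.Eventually.of_forall fun ω => ?_)
    show fz (K ∪ K') κ ω * T ω = fz K κ ω * (fz K' κ ω * T ω)
    rw [fz_union, mul_assoc]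
  · refine integral_congr_ae (Filter.Eventually.of_forall fun ω => ?_)
    show fz (K ∪ K') κ ω = fz K κ ω * fz K' κ ω
    rw [fz_union]

/-- **More frozen squares outside of the box.** -/
theorem EF_change (hQ : Kit Q) (hP : IsLim Q P) (hg : ∀ᵐ ω ∂P, Good ω) (h : RM Q K κ A V a)
    (hAK : Disjoint A K) (hAK' : Disjoint A K') {T : Cfg → ℝ} (hT0 : ∀ ω, 0 ≤ T ω)
    (hT : Loc (V ∪ K) T) :
    EF P (K ∪ K') κ T ≤ a * EF P K κ T ∧ EF P K κ T ≤ a * EF P (K ∪ K') κ T := by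
  have hQ_pos := hQ.pos
  have hPp : IsProbabilityMeasure P := hP.1
  obtain ⟨h1, h2⟩ := Vale.Agent.P167.N.H506.Q.RM.EF_ratio hQ h hAK hP hg hT0 hT (G := fz K' κ) (M := 1)
    (fun ω => fz_nonneg _ _ _) (QL.of_loc (fz_loc K' κ))
    (fun ω _ => by rw [abs_of_nonneg (fz_nonneg _ _ _)]; exact fz_le_one _ _ _)
    ((fz_loc K' κ).ind hAK'.symm)
  have hp : 0 < EF P K κ (fz K' κ) := by
    have e : EF P K κ (fz K' κ) = (∫ ω, fz (K ∪ K') κ ω ∂P) / ∫ ω, fz K κ ω ∂P := by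
      unfold EF
      congr 1
      refine integral_congr_ae (Filter.Eventually.of_forall fun ω => ?_)
      show fz K κ ω * fz K' κ ω = fz (K ∪ K') κ ω
      rw [fz_union]
    rw [e]
    exact div_pos (fz_pos hQ hP hg _ _) (fz_pos hQ hP hg _ _)
  rw [EF_union hQ hP hg]
  constructor
  · rw [div_le_iff₀ hp]
    calc _ ≤ a * (EF P K κ (fz K' κ) * EF P K κ T) := h1
      _ = _ := by ring
  · rw [← mul_div_assoc, le_div_iff₀ hp]
    calc _ = EF P K κ (fz K' κ) * EF P K κ T := by ring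
      _ ≤ _ := h2

/-- **Two sets of frozen squares with the same trace on the box.** -/
theorem EF_comp (hQ : Kit Q) (hP : IsLim Q P) (hg : ∀ᵐ ω ∂P, Good ω) (h : RM Q K κ A V a)
    (ha : 0 ≤ a) (hAK : Disjoint A K) (h1 : K ⊆ K₁) (h2 : K ⊆ K₂) (hA1 : Disjoint A K₁)
    (hA2 : Disjoint A K₂) {T : Cfg → ℝ} (hT0 : ∀ ω, 0 ≤ T ω) (hT : Loc (V ∪ K) T) :
    EF P K₁ κ T ≤ a ^ 2 * EF P K₂ κ T := by
  have hQ_pos := hQ.pos
  have e1 := (EF_change hQ hP hg h hAK hA1 hT0 hT).1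
  have e2 := (EF_change hQ hP hg h hAK hA2 hT0 hT).2
  rw [union_eq_right.2 h1] at e1
  rw [union_eq_right.2 h2] at e2
  calc _ ≤ a * EF P K κ T := e1
    _ ≤ a * (a * EF P K₂ κ T) := mul_le_mul_of_nonneg_left e2 ha
    _ = _ := by ring

/-- **Products over boxes**: given all the frozen squares the expectation of the product is comparable
to the product of the expectations given the frozen squares of one row each. `W`: all frozen squares,
`K i`: the frozen squares of the box `i`, `R i`: the row of the box `i`. -/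
theorem EF_all (hQ : Kit Q) (hP : IsLim Q P) (hg : ∀ᵐ ω ∂P, Good ω) (ha : 1 ≤ a)
    {ι : Type*} [DecidableEq ι] (I : Finset ι) {A V K R : ι → Finset (ℤ × ℤ)} {W : Finset (ℤ × ℤ)}
    (h : ∀ i ∈ I, RM Q (K i) κ (A i) (V i) a) (hV : ∀ i ∈ I, V i ⊆ A i)
    (hA : ∀ i ∈ I, ∀ j ∈ I, i ≠ j → Disjoint (A i) (A j)) (hKW : ∀ i ∈ I, K i ⊆ W)
    (hKR : ∀ i ∈ I, K i ⊆ R i) (hAW : ∀ i ∈ I, Disjoint (A i) W)
    (hAR : ∀ i ∈ I, Disjoint (A i) (R i)) {T : ι → Cfg → ℝ} (hT0 : ∀ i ∈ I, ∀ ω, 0 ≤ T i ω)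
    (hT : ∀ i ∈ I, Loc (V i ∪ K i) (T i)) :
    EF P W κ (fun ω => ∏ i ∈ I, T i ω) ≤ (a ^ 3) ^ I.card * ∏ i ∈ I, EF P (R i) κ (T i) ∧
      ∏ i ∈ I, EF P (R i) κ (T i) ≤ (a ^ 3) ^ I.card * EF P W κ (fun ω => ∏ i ∈ I, T i ω) := by
  have hQ_pos := hQ.pos
  have ha0 : 0 ≤ a := by linarith
  obtain ⟨h1, h2⟩ := EF_prod (κ := κ) hQ hP hg ha I (K := W)
    (fun i hi => (h i hi).sup (hKW i hi)) hV hA hAW hT0
    (fun i hi ω ω' hh => hT i hi ω ω' fun v hv => hh v (by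
      rcases Finset.mem_union.1 hv with h3 | h3
      · exact Finset.mem_union_left _ h3
      · exact Finset.mem_union_right _ (hKW i hi h3)))
  have hAK : ∀ i ∈ I, Disjoint (A i) (K i) := fun i hi =>
    Finset.disjoint_of_subset_right (hKW i hi) (hAW i hi)
  have c1 : ∏ i ∈ I, EF P W κ (T i) ≤ (a ^ 2) ^ I.card * ∏ i ∈ I, EF P (R i) κ (T i) := by
    rw [← Finset.prod_const, ← Finset.prod_mul_distrib]
    exact Finset.prod_le_prod (fun i hi => EF_nonneg (hT0 i hi)) fun i hi =>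
      EF_comp hQ hP hg (h i hi) ha0 (hAK i hi) (hKW i hi) (hKR i hi) (hAW i hi) (hAR i hi)
        (hT0 i hi) (hT i hi)
  have c2 : ∏ i ∈ I, EF P (R i) κ (T i) ≤ (a ^ 2) ^ I.card * ∏ i ∈ I, EF P W κ (T i) := by
    rw [← Finset.prod_const, ← Finset.prod_mul_distrib]
    exact Finset.prod_le_prod (fun i hi => EF_nonneg (hT0 i hi)) fun i hi =>
      EF_comp hQ hP hg (h i hi) ha0 (hAK i hi) (hKR i hi) (hKW i hi) (hAR i hi) (hAW i hi)
        (hT0 i hi) (hT i hi)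
  have e : (a ^ 3) ^ I.card = a ^ I.card * (a ^ 2) ^ I.card := by
    rw [← mul_pow]
    congr 1
    ring
  rw [e]
  constructor
  · calc _ ≤ a ^ I.card * ∏ i ∈ I, EF P W κ (T i) := h1
      _ ≤ a ^ I.card * ((a ^ 2) ^ I.card * ∏ i ∈ I, EF P (R i) κ (T i)) := by gcongr
      _ = _ := by ring
  · calc _ ≤ (a ^ 2) ^ I.card * ∏ i ∈ I, EF P W κ (T i) := c2
      _ ≤ (a ^ 2) ^ I.card * (a ^ I.card * EF P W κ (fun ω => ∏ i ∈ I, T i ω)) := by gcongr
      _ = _ := by ring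

end Vale.Agent.P167.N.H506.Q
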