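import Vale.Agent.P167.N.Kit
import Vale.Agent.P167.N.H506.Q.Mul
import Vale.Agent.P167.N.H506.Q.Rm
import Vale.Agent.P167.H506.Q.Hole

/-! generated from Vale.Agent.P167.H506.Q.Hole (q < 1 port) -/

set_option autoImplicit false

namespace Vale.Agent.P167.N.H506.Q

open Vale.Agent.P167.H506.Q Vale.Agent.P167.H506

open Finset MeasureTheory Vale.Agent.P167.FK Vale.Agent.P167.FKA

variable {Q : ℝ} {K : Finset (ℤ × ℤ)} {κ : Cfg}

/-- **Boxes at the holes.** Every box `(c i, R)` contains only closed or only open frozen squares. -/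
theorem rm_holes (hQ : Kit Q) (hκ : Good κ) {α C : ℝ} (h : ArmS Q α C) {ι : Type*}
    [DecidableEq ι] (I : Finset ι) (c : ι → ℤ × ℤ) {r R : ℤ} (hr : 1 ≤ r) (hrR : r ≤ R)
    (hdis : ∀ i ∈ I, ∀ j ∈ I, i ≠ j → Disjoint (Bq (c i) R) (Bq (c j) R))
    (hcol : ∀ i ∈ I, ∃ b : Bool, ∀ v ∈ K, v ∈ Bq (c i) R → κ v = b)
    (hshp : ∀ i ∈ I, Shp (K : Set (ℤ × ℤ)) (c i) r R)
    (hε : C * ((r : ℝ) / R) ^ α < 1) :
    RM Q K κ ((I.biUnion fun i => Bq (c i) R) \ K) ((I.biUnion fun i => Bq (c i) r) \ K)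
      (fac I.card (C * ((r : ℝ) / R) ^ α)) := by
  have hQ_pos := hQ.pos
  have e : ∀ ρ : ℤ, (I.biUnion fun i => Bq (c i) ρ) \ K = I.biUnion fun i => Bq (c i) ρ \ K := by
    intro ρ
    ext v
    simp only [Finset.mem_sdiff, Finset.mem_biUnion]
    constructor
    · rintro ⟨⟨i, hi, hv⟩, hK⟩
      exact ⟨i, hi, hv, hK⟩
    · rintro ⟨i, hi, hv, hK⟩
      exact ⟨⟨i, hi, hv⟩, hK⟩
  rw [e, e]
  refine RM.biUnion hQ hκ I ?_ ?_ ?_ ?_
  · intro i hi
    obtain ⟨b, hb⟩ := hcol i hi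
    cases b with
    | false => exact rm_closed hQ h hr hrR hb (hshp i hi) hε
    | true => exact rm_open hQ h hr hrR hb (hshp i hi) hε
  · intro i _ v hv
    rw [Finset.mem_sdiff, mem_bq] at hv ⊢
    refine ⟨?_, hv.2⟩
    have := hv.1
    omega
  · intro i hi j hj hij
    exact Finset.disjoint_of_subset_left Finset.sdiff_subset
      (Finset.disjoint_of_subset_right Finset.sdiff_subset (hdis i hi j hj hij))
  · intro i _
    exact Finset.sdiff_disjoint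

/-- **(S-A)**: `T ≥ 0` depends on the balls `(c i, r)` (and on the frozen squares), `G` does not
depend on the free squares of the balls `(c i, R)`; expectations for the infinite-volume measure with
the squares of `K` frozen in the states `κ` (not normalised). -/
theorem hole_mix (hQ : Kit Q) (hκ : Good κ) {α C : ℝ} (h : ArmS Q α C) {ι : Type*}
    [DecidableEq ι] (I : Finset ι) (c : ι → ℤ × ℤ) {r R : ℤ} (hr : 1 ≤ r) (hrR : r ≤ R)
    (hdis : ∀ i ∈ I, ∀ j ∈ I, i ≠ j → Disjoint (Bq (c i) R) (Bq (c j) R))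
    (hcol : ∀ i ∈ I, ∃ b : Bool, ∀ v ∈ K, v ∈ Bq (c i) R → κ v = b)
    (hshp : ∀ i ∈ I, Shp (K : Set (ℤ × ℤ)) (c i) r R)
    (hC : 0 ≤ C) (hε1 : C * ((r : ℝ) / R) ^ α < 1)
    (hε : 8 * I.card * (C * ((r : ℝ) / R) ^ α) ≤ 1) {P : Measure Cfg} (hP : H519.IsLim Q P)
    (hg : ∀ᵐ ω ∂P, Good ω) {T G : Cfg → ℝ} (hT0 : ∀ ω, 0 ≤ T ω)
    (hT : Loc ((I.biUnion fun i => Bq (c i) r) ∪ K) T) (hGq : QX.QL G) {M : ℝ}
    (hM : ∀ ω, Good ω → |G ω| ≤ M) (hG : Ind ((I.biUnion fun i => Bq (c i) R) \ K) G) :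
    |(∫ ω, fz K κ ω * (G ω * T ω) ∂P) * (∫ ω, fz K κ ω ∂P) -
        (∫ ω, fz K κ ω * G ω ∂P) * (∫ ω, fz K κ ω * T ω ∂P)| ≤
      8 * I.card * (C * ((r : ℝ) / R) ^ α) *
        ((∫ ω, fz K κ ω * |G ω| ∂P) * (∫ ω, fz K κ ω * T ω ∂P)) := by
  have hQ_pos := hQ.pos
  have hRr : (0 : ℝ) < r := by exact_mod_cast (by omega : 0 < r)
  have hRR : (0 : ℝ) < R := by exact_mod_cast (by omega : 0 < R)
  have hε0 : 0 ≤ C * ((r : ℝ) / R) ^ α := by positivity
  have h1 := rm_holes hQ hκ h I c hr hrR hdis hcol hshp hε1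
  have h2 := RM.mul_lim hQ hκ h1 Finset.sdiff_disjoint hP hg hT0 (by
    have e : (I.biUnion fun i => Bq (c i) r) ∪ K = ((I.biUnion fun i => Bq (c i) r) \ K) ∪ K := by
      rw [Finset.sdiff_union_self_eq_union]
    rw [← e]
    exact hT) hGq hM hG
  refine h2.trans (mul_le_mul_of_nonneg_right ?_ (mul_nonneg
    (integral_nonneg fun ω => mul_nonneg (fz_nonneg _ _ _) (abs_nonneg _))
    (integral_nonneg fun ω => mul_nonneg (fz_nonneg _ _ _) (hT0 _))))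
  have := fac_le hε0 hε hε1
  linarith

end Vale.Agent.P167.N.H506.Q
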